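import Mathlib

/-!
The Calabi identity for the cubic form of a Hessian metric of constant determinant at a point where
the Hessian is the identity, in every dimension, and two Cauchy-Schwarz consequences.
-/

open Finset

namespace Vale.Agent.P252G.Const

variable {n : ℕ}

/-- Contraction of two cubic forms in one index. -/
def tt (A : Fin n → Fin n → Fin n → ℝ) (l i j k : Fin n) : ℝ := ∑ a, A l i a * A a j k

/-- The Ricci form, four times. -/
def ric (A : Fin n → Fin n → Fin n → ℝ) (i a : Fin n) : ℝ := ∑ j, ∑ k, A i j k * A a k j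

/-- The covariant derivative of the cubic form. -/
noncomputable def cov (A : Fin n → Fin n → Fin n → ℝ) (B : Fin n → Fin n → Fin n → Fin n → ℝ)
    (l i j k : Fin n) : ℝ :=
  B l i j k - (tt A l i j k + tt A l j i k + tt A l k i j) / 2

/-- The first derivative of `G * T`. -/
def dm (A : Fin n → Fin n → Fin n → ℝ) (B : Fin n → Fin n → Fin n → Fin n → ℝ)
    (l i j k : Fin n) : ℝ :=
  B l i j k - ∑ b, A l j b * A i b k

/-- The first derivative of the squared norm. -/
def dR (A : Fin n → Fin n → Fin n → ℝ) (B : Fin n → Fin n → Fin n → Fin n → ℝ) (l : Fin n) : ℝ :=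
  -(∑ i, ∑ a, A l i a * ric A i a) + ∑ i, ∑ j, ∑ k, 2 * (dm A B l i j k * A i k j)

/-- The traced fifth derivatives forced by the equation. -/
def fifth (A : Fin n → Fin n → Fin n → ℝ) (B : Fin n → Fin n → Fin n → Fin n → ℝ)
    (i j k : Fin n) : ℝ :=
  -(∑ p, ∑ q, ((∑ b, (A i p b * A j b q + A j p b * A i b q)) - B i j p q) * A p q k) +
    ∑ p, ∑ q, A i p q * B j p q k + ∑ p, ∑ q, A j p q * B i p q k

/-- The Laplacian of the squared norm. -/
def lapR (A : Fin n → Fin n → Fin n → ℝ) (B : Fin n → Fin n → Fin n → Fin n → ℝ) : ℝ :=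
  (∑ i, ∑ a, ric A i a * ric A i a) -
    2 * (∑ l, ∑ i, ∑ a, A l i a *
      ∑ j, ∑ k, (dm A B l i j k * A a k j + A i j k * dm A B l a k j)) +
    2 * (∑ i, ∑ j, ∑ k, ((∑ b, ric A j b * A i b k) - 2 * (∑ l, ∑ b, A l j b * B l i b k) +
      fifth A B i j k) * A i k j) +
    2 * ∑ l, ∑ i, ∑ j, ∑ k, dm A B l i j k * dm A B l i k j

/-- A sum over four indices. -/
def S4 (f : Fin n → Fin n → Fin n → Fin n → ℝ) : ℝ := ∑ l, ∑ i, ∑ j, ∑ k, f l i j k

theorem sum4_swap12 (f : Fin n → Fin n → Fin n → Fin n → ℝ) :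
    S4 (fun l i j k => f i l j k) = S4 f := Finset.sum_comm

theorem sum4_swap23 (f : Fin n → Fin n → Fin n → Fin n → ℝ) :
    S4 (fun l i j k => f l j i k) = S4 f := Finset.sum_congr rfl fun _ _ => Finset.sum_comm

theorem sum4_swap34 (f : Fin n → Fin n → Fin n → Fin n → ℝ) :
    S4 (fun l i j k => f l i k j) = S4 f :=
  Finset.sum_congr rfl fun _ _ => Finset.sum_congr rfl fun _ _ => Finset.sum_comm

theorem flat4 (f : Fin n → Fin n → Fin n → Fin n → ℝ) :
    (∑ a, ∑ b, ∑ c, ∑ d, f a b c d) =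
      ∑ x : Fin n × Fin n × Fin n × Fin n, f x.1 x.2.1 x.2.2.1 x.2.2.2 := by
  simp only [Fintype.sum_prod_type]

theorem flat5 (f : Fin n → Fin n → Fin n → Fin n → Fin n → ℝ) :
    (∑ a, ∑ b, ∑ c, ∑ d, ∑ e, f a b c d e) =
      ∑ x : Fin n × Fin n × Fin n × Fin n × Fin n,
        f x.1 x.2.1 x.2.2.1 x.2.2.2.1 x.2.2.2.2 := by
  simp only [Fintype.sum_prod_type]

theorem flat6 (f : Fin n → Fin n → Fin n → Fin n → Fin n → Fin n → ℝ) :
    (∑ a, ∑ b, ∑ c, ∑ d, ∑ e, ∑ g, f a b c d e g) =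
      ∑ x : Fin n × Fin n × Fin n × Fin n × Fin n × Fin n,
        f x.1 x.2.1 x.2.2.1 x.2.2.2.1 x.2.2.2.2.1 x.2.2.2.2.2 := by
  simp only [Fintype.sum_prod_type]

variable {A : Fin n → Fin n → Fin n → ℝ} {B : Fin n → Fin n → Fin n → Fin n → ℝ}

/-- The squared norm of the fourth order form. -/
def sBB (B : Fin n → Fin n → Fin n → Fin n → ℝ) : ℝ := S4 fun l i j k => B l i j k ^ 2

/-- The product of the fourth order form with the contraction. -/
def sBT (A : Fin n → Fin n → Fin n → ℝ) (B : Fin n → Fin n → Fin n → Fin n → ℝ) : ℝ :=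
  S4 fun l i j k => B l i j k * tt A l i j k

/-- The squared norm of the contraction. -/
def sTT (A : Fin n → Fin n → Fin n → ℝ) : ℝ := S4 fun l i j k => tt A l i j k ^ 2

/-- The tetrahedral contraction. -/
def sK (A : Fin n → Fin n → Fin n → ℝ) : ℝ :=
  S4 fun l i j k => tt A l i j k * tt A l j i k

section

variable (sA0 : ∀ i j k, A i j k = A j i k) (sA1 : ∀ i j k, A i j k = A i k j)
include sA0 sA1

theorem tt_symL (l i j k : Fin n) : tt A i l j k = tt A l i j k :=
  Finset.sum_congr rfl fun a _ => by rw [sA0 i l a]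

theorem tt_symR (l i j k : Fin n) : tt A l i k j = tt A l i j k :=
  Finset.sum_congr rfl fun a _ => by rw [sA1 a k j]

theorem sA2 (i j k : Fin n) : A k j i = A i j k := by rw [sA0 k j i, sA1 j k i, sA0 j i k]

theorem sA3 (i j k : Fin n) : A j k i = A i j k := by rw [sA1 j k i, sA0 j i k]

theorem ric_eq (i a : Fin n) : ric A i a = ∑ j, ∑ k, A i j k * A a j k :=
  Finset.sum_congr rfl fun j _ => Finset.sum_congr rfl fun k _ => by rw [sA1 a k j]

theorem ric_symm (i a : Fin n) : ric A a i = ric A i a := by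
  rw [ric_eq sA0 sA1, ric_eq sA0 sA1]
  exact Finset.sum_congr rfl fun j _ => Finset.sum_congr rfl fun k _ => mul_comm _ _

theorem sTT_eq : ∑ i, ∑ a, ric A i a * ric A i a = sTT A := by
  simp only [ric_eq sA0 sA1, sTT, S4, tt, sq, Finset.sum_mul_sum]
  rw [flat6, flat6]
  exact Finset.sum_nbij' (fun x => (x.2.2.1, x.2.2.2.2.1, x.2.2.2.1, x.2.2.2.2.2, x.1, x.2.1))
    (fun x => (x.2.2.2.2.1, x.2.2.2.2.2, x.1, x.2.2.1, x.2.1, x.2.2.2.1)) (by simp) (by simp)
    (by simp) (by simp) fun ⟨i, a, j, p, k, q⟩ _ => by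
      simp only
      rw [sA3 sA0 sA1 i j k, sA3 sA0 sA1 a j k]
      ring

/-- The contraction with one transposition in the second factor. -/
theorem sK_eq (e : Fin n → Fin n → Fin n → Fin n → ℝ)
    (he : ∀ l i j k, e l i j k = tt A l j i k * tt A l k j i) : S4 e = sK A := by
  rw [sK, ← sum4_swap34 (fun l i j k => tt A l i j k * tt A l j i k),
    ← sum4_swap23 fun l i j k => tt A l i k j * tt A l k i j]
  refine Finset.sum_congr rfl fun l _ => Finset.sum_congr rfl fun i _ =>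
    Finset.sum_congr rfl fun j _ => Finset.sum_congr rfl fun k _ => ?_
  simp only
  rw [he, tt_symR sA0 sA1 l j i k]

/-- The first derivative term. -/
theorem term_dR (l : Fin n) (c : Fin n → Fin n → Fin n → ℝ)
    (hc : ∀ i j k, c i j k = tt A l j i k) :
    ∑ i, ∑ j, ∑ k, A i j k * c i j k = ∑ i, ∑ j, ∑ k, A i j k * tt A l i j k := by
  rw [Finset.sum_comm]
  exact Finset.sum_congr rfl fun i _ => Finset.sum_congr rfl fun j _ =>
    Finset.sum_congr rfl fun k _ => by rw [hc, sA0 i j k]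

theorem ric_contract (l : Fin n) :
    ∑ i, ∑ a, A l i a * ric A i a = ∑ i, ∑ j, ∑ k, A i j k * tt A l i j k := by
  simp only [ric_eq sA0 sA1, tt, Finset.mul_sum]
  refine Finset.sum_congr rfl fun i _ => ?_
  rw [Finset.sum_comm]
  refine Finset.sum_congr rfl fun j _ => ?_
  rw [Finset.sum_comm]
  exact Finset.sum_congr rfl fun k _ => Finset.sum_congr rfl fun a _ => by ring

variable (sB0 : ∀ l i j k, B l i j k = B i l j k) (sB1 : ∀ l i j k, B l i j k = B l j i k)
  (sB2 : ∀ l i j k, B l i j k = B l i k j)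
include sB0 sB1 sB2

theorem dR_eq (l : Fin n) : dR A B l = 2 * ∑ i, ∑ j, ∑ k, A i j k * cov A B l i j k := by
  have e1 : ∀ i j k, ∑ b, A l j b * A i b k = tt A l j i k := fun i j k =>
    Finset.sum_congr rfl fun b _ => by rw [sA0 i b k]
  set AT := ∑ i, ∑ j, ∑ k, A i j k * tt A l i j k with hAT
  set AB := ∑ i, ∑ j, ∑ k, A i j k * B l i j k with hAB
  have t3 := term_dR sA0 sA1 l (fun i j k => tt A l j i k) fun _ _ _ => rfl
  have t2 : ∑ i, ∑ j, ∑ k, A i j k * tt A l k i j = AT := by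
    rw [hAT, ← term_dR sA0 sA1 l (fun i j k => tt A l j i k) fun _ _ _ => rfl]
    refine Finset.sum_congr rfl fun i _ => ?_
    rw [Finset.sum_comm]
    exact Finset.sum_congr rfl fun j _ => Finset.sum_congr rfl fun k _ => by rw [sA1 i k j]
  have hcov : ∑ i, ∑ j, ∑ k, A i j k * cov A B l i j k = AB - 3 * AT / 2 := by
    simp only [cov, mul_sub, mul_div, mul_add, Finset.sum_sub_distrib, ← Finset.sum_div,
      Finset.sum_add_distrib, t2, t3, ← hAT, ← hAB]
    ring
  have hdm : ∑ i, ∑ j, ∑ k, 2 * (dm A B l i j k * A i k j) =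
      2 * (AB - ∑ i, ∑ j, ∑ k, A i j k * tt A l j i k) := by
    simp only [hAB, dm, e1, ← Finset.sum_sub_distrib, Finset.mul_sum]
    exact Finset.sum_congr rfl fun i _ => Finset.sum_congr rfl fun j _ =>
      Finset.sum_congr rfl fun k _ => by rw [sA1 i k j]; ring
  rw [dR, hdm, hcov, t3, ric_contract sA0 sA1, ← hAT]
  ring

theorem dm_eq (l i j k : Fin n) : dm A B l i j k = B l i j k - tt A l j i k :=
  congrArg _ (Finset.sum_congr rfl fun b _ => by rw [sA0 i b k])

theorem term_u1 : ∑ l, ∑ i, ∑ a, A l i a * ∑ j, ∑ k, dm A B l i j k * A a k j =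
      sBT A B - sK A := by
  simp only [dm_eq sA0 sA1 sB0 sB1 sB2, sub_mul, Finset.sum_sub_distrib, mul_sub, Finset.mul_sum]
  refine congrArg₂ (· - ·) ?_ ?_
  · refine Finset.sum_congr rfl fun l _ => Finset.sum_congr rfl fun i _ => ?_
    rw [Finset.sum_comm]
    refine Finset.sum_congr rfl fun j _ => ?_
    rw [Finset.sum_comm]
    refine Finset.sum_congr rfl fun k _ => ?_
    simp only [tt, Finset.mul_sum]
    exact Finset.sum_congr rfl fun a _ => by rw [sA1 a k j]; ring
  · refine Finset.sum_congr rfl fun l _ => Finset.sum_congr rfl fun i _ => ?_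
    rw [Finset.sum_comm]
    refine Finset.sum_congr rfl fun j _ => ?_
    rw [Finset.sum_comm]
    refine Finset.sum_congr rfl fun k _ => ?_
    simp only
    conv_rhs => rw [show tt A l i j k = ∑ a, A l i a * A a j k from rfl, Finset.sum_mul]
    exact Finset.sum_congr rfl fun a _ => by rw [sA1 a k j]; ring

theorem term_u2 : ∑ l, ∑ i, ∑ a, A l i a * ∑ j, ∑ k, A i j k * dm A B l a k j =
      sBT A B - sK A := by
  rw [← term_u1 sA0 sA1 sB0 sB1 sB2]
  refine Finset.sum_congr rfl fun l _ => ?_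
  rw [Finset.sum_comm]
  refine Finset.sum_congr rfl fun i _ => Finset.sum_congr rfl fun a _ => ?_
  rw [sA1 l a i, Finset.sum_comm]
  exact congrArg _ (Finset.sum_congr rfl fun j _ => Finset.sum_congr rfl fun k _ => mul_comm _ _)

theorem term_u3 : ∑ i, ∑ j, ∑ k, (∑ b, ric A j b * A i b k) * A i k j = sTT A := by
  rw [← sTT_eq sA0 sA1, Finset.sum_comm]
  refine Finset.sum_congr rfl fun j _ => ?_
  simp only [Finset.sum_mul]
  rw [Finset.sum_congr rfl fun i _ => Finset.sum_comm, Finset.sum_comm]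
  refine Finset.sum_congr rfl fun b _ => ?_
  simp only [mul_assoc, ← Finset.mul_sum]
  congr 1
  rw [ric_eq sA0 sA1]
  refine Finset.sum_congr rfl fun i _ => Finset.sum_congr rfl fun k _ => ?_
  rw [sA1 i k j, sA0 i j k, sA0 i b k]
  ring

theorem term_u4 : ∑ i, ∑ j, ∑ k, (∑ l, ∑ b, A l j b * B l i b k) * A i k j = sBT A B := by
  simp only [Finset.sum_mul, sBT, S4, tt, Finset.mul_sum]
  rw [flat5, flat5]
  exact Finset.sum_nbij' (fun x => (x.1, x.2.2.1, x.2.2.2.1, x.2.2.2.2, x.2.1))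
    (fun x => (x.1, x.2.2.2.2, x.2.1, x.2.2.1, x.2.2.2.1)) (by simp) (by simp) (by simp)
    (by simp) fun ⟨i, j, k, l, b⟩ _ => by
      simp only
      rw [sA0 l j b, sB0 l i b k, sB2 i l b k, sB1 i l k b]
      ring

theorem term_u5 : ∑ i, ∑ j, ∑ k, fifth A B i j k * A i k j = 3 * sBT A B - 2 * sK A := by
  have v1 : ∀ P : Fin n → Fin n → Fin n → ℝ, (∀ i j k, P i j k = A i j k) →
      ∑ i, ∑ j, ∑ k, (∑ p, ∑ q, (∑ b, A i p b * A j b q) * A p q k) * P i j k = sK A := by
    intro P hP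
    simp only [hP, sK, S4, tt, Finset.sum_mul_sum]
    simp only [Finset.sum_mul]
    rw [flat6, flat6]
    exact Finset.sum_nbij' (fun x => (x.2.2.1, x.2.1, x.2.2.2.1, x.2.2.2.2.2, x.1, x.2.2.2.2.1))
      (fun x => (x.2.2.2.2.1, x.2.1, x.1, x.2.2.1, x.2.2.2.2.2, x.2.2.2.1)) (by simp) (by simp)
      (by simp) (by simp) fun ⟨i, j, k, p, q, b⟩ _ => by
        simp only
        rw [sA2 sA0 sA1 i j k, sA3 sA0 sA1 k p q, ← sA3 sA0 sA1 q j b]
        ring
  have v2 : ∑ i, ∑ j, ∑ k, (∑ p, ∑ q, B i j p q * A p q k) * A i j k = sBT A B := by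
    simp only [sBT, S4, tt, Finset.sum_mul, Finset.mul_sum]
    rw [flat5, flat5]
    exact Finset.sum_nbij' (fun x => (x.1, x.2.1, x.2.2.2.1, x.2.2.2.2, x.2.2.1))
      (fun x => (x.1, x.2.1, x.2.2.2.2, x.2.2.1, x.2.2.2.1)) (by simp) (by simp) (by simp)
      (by simp) fun ⟨i, j, k, p, q⟩ _ => by
        simp only
        rw [sA3 sA0 sA1 k p q]
        ring
  have v3 : ∀ P : Fin n → Fin n → Fin n → ℝ, (∀ i j k, P i j k = A i j k) →
      ∑ i, ∑ j, ∑ k, (∑ p, ∑ q, A i p q * B j p q k) * P i j k = sBT A B := by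
    intro P hP
    simp only [hP, sBT, S4, tt, Finset.sum_mul, Finset.mul_sum]
    rw [flat5, flat5]
    exact Finset.sum_nbij' (fun x => (x.2.1, x.2.2.1, x.2.2.2.1, x.2.2.2.2, x.1))
      (fun x => (x.2.2.2.2, x.1, x.2.1, x.2.2.1, x.2.2.2.1)) (by simp) (by simp) (by simp)
      (by simp) fun ⟨i, j, k, p, q⟩ _ => by
        simp only
        rw [sB2 j p q k, sB1 j p k q, sA3 sA0 sA1 i j k]
        ring
  have hAA : ∑ i, ∑ j, ∑ k, fifth A B i j k * A i k j =
      ∑ i, ∑ j, ∑ k, fifth A B i j k * A i j k :=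
    Finset.sum_congr rfl fun i _ => Finset.sum_congr rfl fun j _ =>
      Finset.sum_congr rfl fun k _ => by rw [sA1 i k j]
  rw [hAA]
  simp only [fifth, Finset.sum_add_distrib, sub_mul, add_mul, Finset.sum_sub_distrib,
    neg_mul, Finset.sum_neg_distrib, v2]
  rw [v1 A fun _ _ _ => rfl, v3 A fun _ _ _ => rfl]
  have w1 := v1 (fun i j k => A j i k) fun i j k => sA0 j i k
  have w3 := v3 (fun i j k => A j i k) fun i j k => sA0 j i k
  rw [Finset.sum_comm] at w1 w3
  rw [w1, w3]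
  ring

theorem term_u6 : ∑ l, ∑ i, ∑ j, ∑ k, dm A B l i j k * dm A B l i k j =
      sBB B - 2 * sBT A B + sK A := by
  have b1 : S4 (fun l i j k => B l i j k * tt A l k i j) = sBT A B := by
    rw [sBT, ← sum4_swap23 fun l i j k => B l i j k * tt A l i j k,
      ← sum4_swap34 fun l i j k => B l j i k * tt A l j i k]
    exact Finset.sum_congr rfl fun l _ => Finset.sum_congr rfl fun i _ =>
      Finset.sum_congr rfl fun j _ => Finset.sum_congr rfl fun k _ => by
        simp only; rw [sB1 l k i j, sB2 l i k j]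
  have b2 : S4 (fun l i j k => tt A l j i k * B l i j k) = sBT A B := by
    rw [sBT, ← sum4_swap23 fun l i j k => B l i j k * tt A l i j k]
    exact Finset.sum_congr rfl fun l _ => Finset.sum_congr rfl fun i _ =>
      Finset.sum_congr rfl fun j _ => Finset.sum_congr rfl fun k _ => by simp only; rw [← sB1, mul_comm]
  have b3 := sK_eq sA0 sA1 (fun l i j k => tt A l j i k * tt A l k i j)
    fun l i j k => by rw [tt_symR sA0 sA1 l k j i]
  have e : ∀ l i j k, dm A B l i j k * dm A B l i k j = B l i j k ^ 2 -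
      B l i j k * tt A l k i j - tt A l j i k * B l i j k + tt A l j i k * tt A l k i j :=
    fun l i j k => by
      simp only [dm_eq sA0 sA1 sB0 sB1 sB2]
      rw [sB2 l i k j]
      ring
  simp only [S4] at b1 b2 b3
  simp only [e, Finset.sum_add_distrib, Finset.sum_sub_distrib, b1, b2, b3, sBB, S4]
  ring

/-- The Calabi identity. -/
theorem lapR_eq : lapR A B = 2 * sBB B - 6 * sBT A B + 3 * sTT A + 2 * sK A := by
  simp only [lapR, Finset.sum_add_distrib, mul_add, add_mul, sub_mul, Finset.sum_sub_distrib,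
    mul_assoc (2 : ℝ), ← Finset.mul_sum, sTT_eq sA0 sA1, term_u1 sA0 sA1 sB0 sB1 sB2,
    term_u2 sA0 sA1 sB0 sB1 sB2, term_u3 sA0 sA1 sB0 sB1 sB2, term_u4 sA0 sA1 sB0 sB1 sB2,
    term_u5 sA0 sA1 sB0 sB1 sB2, term_u6 sA0 sA1 sB0 sB1 sB2]
  ring

theorem cov_sq : S4 (fun l i j k => cov A B l i j k ^ 2) =
    sBB B - 3 * sBT A B + 3 / 4 * sTT A + 3 / 2 * sK A := by
  have a1 : S4 (fun l i j k => B l i j k * tt A l j i k) = sBT A B := by
    rw [sBT, ← sum4_swap23 fun l i j k => B l i j k * tt A l i j k]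
    exact Finset.sum_congr rfl fun l _ => Finset.sum_congr rfl fun i _ =>
      Finset.sum_congr rfl fun j _ => Finset.sum_congr rfl fun k _ => by simp only; rw [← sB1]
  have a2 : S4 (fun l i j k => B l i j k * tt A l k i j) = sBT A B := by
    rw [← a1, ← sum4_swap34 fun l i j k => B l i j k * tt A l j i k]
    exact Finset.sum_congr rfl fun l _ => Finset.sum_congr rfl fun i _ =>
      Finset.sum_congr rfl fun j _ => Finset.sum_congr rfl fun k _ => by simp only; rw [← sB2]
  have a3 : S4 (fun l i j k => tt A l j i k ^ 2) = sTT A :=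
    sum4_swap23 fun l i j k => tt A l i j k ^ 2
  have a4 : S4 (fun l i j k => tt A l k i j ^ 2) = sTT A := by
    rw [← a3, ← sum4_swap34 fun l i j k => tt A l j i k ^ 2]
  have a5 : S4 (fun l i j k => tt A l i j k * tt A l k i j) = sK A := by
    rw [sK, ← sum4_swap34 fun l i j k => tt A l i j k * tt A l j i k]
    exact Finset.sum_congr rfl fun l _ => Finset.sum_congr rfl fun i _ =>
      Finset.sum_congr rfl fun j _ => Finset.sum_congr rfl fun k _ => by
        simp only; rw [tt_symR sA0 sA1 l i j k]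
  have a6 : S4 (fun l i j k => tt A l j i k * tt A l k i j) = sK A :=
    sK_eq sA0 sA1 _ fun l i j k => by rw [tt_symR sA0 sA1 l k j i]
  have e : ∀ l i j k, cov A B l i j k ^ 2 = B l i j k ^ 2 - B l i j k * tt A l i j k -
      B l i j k * tt A l j i k - B l i j k * tt A l k i j +
      1 / 4 * (tt A l i j k ^ 2 + tt A l j i k ^ 2 + tt A l k i j ^ 2) +
      1 / 2 * (tt A l i j k * tt A l j i k + tt A l i j k * tt A l k i j +
        tt A l j i k * tt A l k i j) := fun l i j k => by simp only [cov]; ring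
  simp only [S4, sBB, sBT, sTT, sK] at a1 a2 a3 a4 a5 a6 ⊢
  simp only [e, Finset.sum_add_distrib, Finset.sum_sub_distrib, ← Finset.mul_sum, a1, a2, a3, a4,
    a5, a6]
  ring

theorem sK_le : sK A ≤ sTT A := by
  have h : 0 ≤ S4 fun l i j k => (tt A l i j k - tt A l j i k) ^ 2 :=
    Finset.sum_nonneg fun _ _ => Finset.sum_nonneg fun _ _ => Finset.sum_nonneg fun _ _ =>
      Finset.sum_nonneg fun _ _ => sq_nonneg _
  have a3 : S4 (fun l i j k => tt A l j i k ^ 2) = sTT A :=
    sum4_swap23 fun l i j k => tt A l i j k ^ 2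
  simp only [S4, sTT, sK] at h a3 ⊢
  simp only [sub_sq, Finset.sum_add_distrib, Finset.sum_sub_distrib, mul_assoc, ← Finset.mul_sum,
    a3] at h
  linarith

theorem ric_trace_sq : (∑ i, ric A i i) ^ 2 ≤ (n : ℝ) * sTT A := by
  rw [← sTT_eq sA0 sA1]
  refine (sq_sum_le_card_mul_sum_sq (s := Finset.univ)).trans ?_
  rw [Finset.card_univ, Fintype.card_fin]
  refine mul_le_mul_of_nonneg_left (Finset.sum_le_sum fun i _ => ?_) (Nat.cast_nonneg _)
  rw [sq]
  exact Finset.single_le_sum (f := fun a => ric A i a * ric A i a)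
    (fun a _ => mul_self_nonneg _) (Finset.mem_univ i)

/-- The Calabi inequality in weighted form. -/
theorem weighted (w : Fin n → ℝ) (v k : ℝ) :
    v ^ 2 * (∑ i, ric A i i) ^ 2 ≤ 2 * n * (v ^ 2 * lapR A B - k * v * (∑ l, w l * dR A B l) +
      k ^ 2 / 2 * (∑ l, w l * w l) * (∑ i, ric A i i)) := by
  set c := S4 fun l i j k => cov A B l i j k ^ 2 with hc
  have h1 : 2 * c + sTT A / 2 ≤ lapR A B := by
    rw [hc, lapR_eq sA0 sA1 sB0 sB1 sB2, cov_sq sA0 sA1 sB0 sB1 sB2]
    have := sK_le sA0 sA1 sB0 sB1 sB2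
    linarith
  have h2 : 0 ≤ 2 * v ^ 2 * c - k * v * (∑ l, w l * dR A B l) +
      k ^ 2 / 2 * (∑ l, w l * w l) * (∑ i, ric A i i) := by
    have eQ : k ^ 2 / 2 * (∑ l, w l * w l) * (∑ i, ric A i i) =
        S4 fun l i j m => k ^ 2 / 2 * (w l * w l) * (A i j m * A i j m) := by
      rw [mul_assoc, Finset.sum_mul]
      simp only [S4, ric_eq sA0 sA1, Finset.mul_sum, mul_assoc]
    have ec : (∑ l, w l * dR A B l) =
        S4 fun l i j m => 2 * (w l * (A i j m * cov A B l i j m)) := by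
      simp only [S4, dR_eq sA0 sA1 sB0 sB1 sB2, Finset.mul_sum]
      exact Finset.sum_congr rfl fun l _ => Finset.sum_congr rfl fun i _ =>
        Finset.sum_congr rfl fun j _ => Finset.sum_congr rfl fun m _ => by ring
    have e : 2 * v ^ 2 * c - k * v * (∑ l, w l * dR A B l) +
        k ^ 2 / 2 * (∑ l, w l * w l) * (∑ i, ric A i i) =
        S4 fun l i j k' => 2 * (v * cov A B l i j k' - k / 2 * (w l * A i j k')) ^ 2 := by
      rw [eQ, ec, hc]
      simp only [S4, Finset.mul_sum, ← Finset.sum_sub_distrib, ← Finset.sum_add_distrib]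
      exact Finset.sum_congr rfl fun l _ => Finset.sum_congr rfl fun i _ =>
        Finset.sum_congr rfl fun j _ => Finset.sum_congr rfl fun m _ => by ring
    rw [e]
    exact Finset.sum_nonneg fun _ _ => Finset.sum_nonneg fun _ _ => Finset.sum_nonneg fun _ _ =>
      Finset.sum_nonneg fun _ _ => by positivity
  have h3 := mul_le_mul_of_nonneg_left h1 (sq_nonneg v)
  have h4 := mul_le_mul_of_nonneg_left (ric_trace_sq sA0 sA1 sB0 sB1 sB2) (sq_nonneg v)
  have h5 : v ^ 2 * (sTT A / 2) ≤ v ^ 2 * lapR A B - k * v * (∑ l, w l * dR A B l) +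
      k ^ 2 / 2 * (∑ l, w l * w l) * (∑ i, ric A i i) := by linarith
  have h6 := mul_le_mul_of_nonneg_left h5 (show (0 : ℝ) ≤ 2 * n by positivity)
  linarith

end

/-- The cubic form on a vector, against the contraction with that vector, trace-free case. -/
theorem cubic_ric (trA : ∀ k, ∑ p, A k p p = 0) (w : Fin n → ℝ) :
    (n : ℝ) * (∑ i, ∑ j, ∑ k, A i j k * (w i * w j * w k)) ^ 2 ≤
      ((n : ℝ) - 1) * (∑ i, w i * w i) ^ 2 * ∑ j, ∑ k, (∑ i, A i j k * w i) ^ 2 := by
  rcases Nat.eq_zero_or_pos n with h0 | hn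
  · subst h0; simp
  have hn' : (0 : ℝ) < n := Nat.cast_pos.2 hn
  set Q := ∑ i, w i * w i with hQ
  set M : Fin n → Fin n → ℝ := fun j k => ∑ i, A i j k * w i with hM
  set N : Fin n → Fin n → ℝ := fun j k => (n : ℝ) * (w j * w k) - if j = k then Q else 0 with hN
  have hcs := Finset.sum_mul_sq_le_sq_mul_sq (Finset.univ : Finset (Fin n × Fin n))
    (fun p => M p.1 p.2) (fun p => N p.1 p.2)
  simp only [Fintype.sum_prod_type] at hcs
  have e1 : ∑ j, ∑ k, M j k * N j k =
      (n : ℝ) * ∑ i, ∑ j, ∑ k, A i j k * (w i * w j * w k) := by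
    have hd : ∑ j, M j j = 0 := by
      simp only [hM]
      rw [Finset.sum_comm]
      simp [← Finset.sum_mul, trA]
    simp only [hN, mul_sub, Finset.sum_sub_distrib, mul_ite, mul_zero, Finset.sum_ite_eq,
      Finset.mem_univ, if_true, ← Finset.sum_mul, hd, zero_mul, sub_zero]
    simp only [hM, Finset.sum_mul, Finset.mul_sum]
    conv_lhs => rw [Finset.sum_congr rfl fun j _ => Finset.sum_comm, Finset.sum_comm]
    exact Finset.sum_congr rfl fun i _ => Finset.sum_congr rfl fun j _ =>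
      Finset.sum_congr rfl fun k _ => by ring
  have e2 : ∑ j, ∑ k, N j k ^ 2 = ((n : ℝ) - 1) * n * Q ^ 2 := by
    have q1 : ∑ j, ∑ k, (w j * w k) ^ 2 = Q ^ 2 := by
      rw [sq Q, hQ, Finset.sum_mul_sum]
      exact Finset.sum_congr rfl fun j _ => Finset.sum_congr rfl fun k _ => by ring
    simp only [hN, sub_sq, mul_ite, mul_zero, ite_pow, ne_eq, OfNat.ofNat_ne_zero, not_false_eq_true,
      zero_pow, Finset.sum_add_distrib, Finset.sum_sub_distrib, Finset.sum_ite_eq, Finset.mem_univ,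
      if_true, Finset.sum_const, Finset.card_univ, Fintype.card_fin, nsmul_eq_mul, mul_pow (n : ℝ),
      ← Finset.mul_sum, q1]
    simp only [← Finset.sum_mul, ← Finset.mul_sum, ← hQ]
    ring
  rw [e1, e2, mul_pow] at hcs
  refine le_of_mul_le_mul_left ?_ hn'
  simp only [hM] at hcs
  linarith

end Vale.Agent.P252G.Const
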