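import Vale.Agent.P252G.Const.Point
import Vale.Agent.P252G.Sections

/-!
A solution with constant Hessian determinant and closed graph is an entire quadratic, in every
dimension: the cut-off cubic form is bounded by a power of the height which is lower by one than
the power of the cutoff.
-/

open Set Matrix Finset

namespace Vale.Agent.P252G

open Vale.Agent.P252 (hessian)
open Vale.Agent.P252B (V pd)
open Vale.Agent.P252C (Sm DetOne G T2 T3 MM PP RR QQ)

variable {n : ℕ}

namespace Const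

/-- The constant of the gradient estimate. -/
noncomputable def gradC (n : ℕ) : ℝ := (n : ℝ) * (n + 4) / 2

/-- The constant of the estimate of the cubic form. -/
noncomputable def cubeC (n : ℕ) : ℝ :=
  2 * n * ((((n : ℝ) + 3) ^ 2 / 2 + (n + 3)) * gradC n + ((n : ℝ) + 3) * n)

theorem RR_congr_on {S : Set (V n)} (hS : IsOpen S) {f g : V n → ℝ} (hf : Sm f) (hg : Sm g)
    (hfg : ∀ y ∈ S, f y = g y) {x : V n} (hx : x ∈ S) : RR f x = RR g x := by
  have eG : ∀ i j, G f i j x = G g i j x := fun i j => by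
    have : hessian f x = hessian g x := by
      ext a b
      rw [P252C.hessian_T2 hf, P252C.hessian_T2 hg]
      exact P252C.pd2_congr_on hS hfg hx a b
    simp only [P252C.G, this]
  have eT : ∀ i j k, T3 f i j k x = T3 g i j k x := fun i j k =>
    P252C.pd_congr_on hS (fun y hy => P252C.pd2_congr_on hS hfg hy j k) hx i
  simp only [P252C.RR, P252C.PP, P252C.MM, eG, eT]

theorem sm_cont {f : V n → ℝ} (hf : Sm f) : Continuous f := ContDiff.continuous hf

end Const

namespace Sol

variable (P : Sol n)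

/-- A globally smooth function equal to a multiple of the solution below a height. -/
noncomputable def extC (c h : ℝ) : V n → ℝ := fun x =>
  c * (h + 1 + P.Ω.indicator
    (fun y => Real.smoothTransition (h + 1 - P.u y) * (P.u y - (h + 1))) x)

lemma extC_eq {c h : ℝ} {x : V n} (hx : x ∈ P.Ω) (hu : P.u x ≤ h) : P.extC c h x = c * P.u x := by
  simp [extC, hx, Real.smoothTransition.one_of_one_le (show (1 : ℝ) ≤ h + 1 - P.u x by linarith)]

lemma extC_smooth (c h : ℝ) : Sm (P.extC c h) := by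
  refine ContDiff.mul contDiff_const (ContDiff.add contDiff_const
    (contDiff_iff_contDiffAt.2 fun x => ?_))
  by_cases hx : x ∈ P.Ω
  · have hU := (P.smooth x hx).contDiffAt (P.isOpen.mem_nhds hx)
    refine ContDiffAt.congr_of_eventuallyEq ?_ (Filter.eventuallyEq_of_mem (P.isOpen.mem_nhds hx)
      fun y hy => indicator_of_mem hy _)
    exact ((Real.smoothTransition.contDiff.contDiffAt).comp x (contDiffAt_const.sub hU)).mul
      (hU.sub contDiffAt_const)
  · refine (contDiffAt_const (c := (0 : ℝ))).congr_of_eventuallyEq ?_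
    filter_upwards [(P.isCompact_csec (h + 1)).isClosed.isOpen_compl.mem_nhds
      (fun h' => hx h'.1)] with y hy
    by_cases hyO : y ∈ P.Ω
    · have : h + 1 ≤ P.u y := le_of_not_ge fun h' => hy ⟨hyO, h'⟩
      simp [hyO, Real.smoothTransition.zero_of_nonpos (show h + 1 - P.u y ≤ 0 by linarith)]
    · simp [hyO]

lemma T2_extC {c h : ℝ} {x : V n} (hx : x ∈ P.sec h) (i j : Fin n) :
    T2 (P.extC c h) i j x = c * hessian P.u x i j := by
  rw [P252B.hessian_eq P.isOpen P.smooth hx.1]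
  have hd : ∀ y ∈ P.sec h, pd (P.extC c h) j y = c * pd P.u j y := fun y hy => by
    rw [P252C.pd_congr_on (P.isOpen_sec h) (fun z hz => P.extC_eq hz.1 hz.2.le) hy]
    simp [P252B.pd, fderiv_const_mul (P252B.diffAt_of_mem P.isOpen P.smooth hy.1)]
  show pd (pd (P.extC c h) j) i x = _
  rw [P252C.pd_congr_on (P.isOpen_sec h) hd hx]
  show fderiv ℝ (fun y => c * pd P.u j y) x _ = c * fderiv ℝ (pd P.u j) x _
  rw [fderiv_const_mul (P252B.diffAt_of_mem P.isOpen
    (P252B.contDiffOn_pd P.isOpen P.smooth j) hx.1), _root_.smul_apply, smul_eq_mul]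

lemma hessian_extC {c h : ℝ} {x : V n} (hx : x ∈ P.sec h) :
    hessian (P.extC c h) x = c • hessian P.u x := by
  ext i j
  rw [P252C.hessian_T2 (P.extC_smooth c h), P.T2_extC hx, Matrix.smul_apply, smul_eq_mul]

variable {D c : ℝ} (hc0 : 0 < c) (hcD : c ^ n * D = 1) (hdet : ∀ x ∈ P.Ω, dt P.u x = D)
include hc0 hcD hdet

lemma detOne_extC (h : ℝ) : DetOne (P.extC c h) (P.sec h) where
  sm := P.extC_smooth c h
  op := P.isOpen_sec h
  pos x hx := by rw [P.hessian_extC hx]; exact (P.posDef hx.1).smul hc0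
  det x hx := by
    rw [P.hessian_extC hx, Matrix.det_smul, Fintype.card_fin]
    exact (congrArg _ (hdet x hx.1)).trans hcD

/-- The cut-off cubic form in a section. -/
theorem cube_bound {H : ℝ} (hH : 0 < H) {y : V n} (hy : y ∈ P.csec H) :
    (c * H - P.extC c (H + 1) y) ^ (n + 3) * RR (P.extC c (H + 1)) y ≤
      Const.cubeC n * (c * H) ^ (n + 2) := by
  set w := P.extC c (H + 1) with hw
  have hd : DetOne w (P.sec (H + 1)) := P.detOne_extC hc0 hcD hdet (H + 1)
  set v : V n → ℝ := fun x => c * H - w x with hv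
  have hvc : Continuous v := continuous_const.sub (Const.sm_cont hd.sm)
  have hin : P.csec H ⊆ P.sec (H + 1) := fun x hx => ⟨hx.1, by linarith [hx.2]⟩
  have he : ∀ x ∈ P.csec H, v x = c * (H - P.u x) := fun x hx => by
    simp only [hv, hw, P.extC_eq hx.1 (show P.u x ≤ H + 1 by linarith [hx.2])]; ring
  have hv0 : ∀ x ∈ P.csec H, 0 ≤ v x := fun x hx => by
    rw [he x hx]; exact mul_nonneg hc0.le (sub_nonneg.2 hx.2)
  have hvH : ∀ x ∈ P.csec H, v x ≤ c * H := fun x hx => by
    rw [he x hx]; exact mul_le_mul_of_nonneg_left (sub_le_self _ (P.nonneg hx.1)) hc0.le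
  -- a maximum with positive cutoff is a local maximum
  have hloc : ∀ (f : V n → ℝ) (z : V n), z ∈ P.csec H → IsMaxOn f (P.csec H) z → 0 < v z →
      IsLocalMax f z := fun f z hz hm hpos => by
    refine hm.isLocalMax (Filter.mem_of_superset ((P.isOpen_sec H).mem_nhds ⟨hz.1, ?_⟩)
      (P.sec_subset_csec H))
    rw [he z hz] at hpos
    have := pos_of_mul_pos_right hpos hc0.le
    linarith
  have hne : (P.csec H).Nonempty := ⟨P.p₀, P.sec_subset_csec H (P.mem_sec₀ hH)⟩
  have hQ : ∀ x ∈ P.csec H, v x ^ (n + 1) * QQ w x ≤ Const.gradC n * (c * H) ^ (n + 2) := by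
    obtain ⟨z, hz, hm⟩ := (P.isCompact_csec H).exists_isMaxOn hne
      (((hvc.pow (n + 1)).mul (Const.sm_cont (P252C.sm_QQ hd.sm))).continuousOn)
    intro x hx
    refine (isMaxOn_iff.1 hm x hx).trans ?_
    show v z ^ (n + 1) * QQ w z ≤ _
    rcases (hv0 z hz).lt_or_eq with hp | hp
    · have hb := Const.grad_max hd (hin hz) (c := c * H) (sub_pos.1 hp) (hloc _ z hz hm hp)
      calc v z ^ (n + 1) * QQ w z ≤ v z ^ (n + 1) * (Const.gradC n * v z) :=
            mul_le_mul_of_nonneg_left hb (by positivity)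
        _ = Const.gradC n * v z ^ (n + 2) := by ring
        _ ≤ _ := mul_le_mul_of_nonneg_left (pow_le_pow_left₀ hp.le (hvH z hz) _)
            (by unfold Const.gradC; positivity)
    · rw [← hp, zero_pow (by omega), zero_mul]
      have : 0 < c * H := mul_pos hc0 hH
      unfold Const.gradC; positivity
  obtain ⟨z, hz, hm⟩ := (P.isCompact_csec H).exists_isMaxOn hne
    (((hvc.pow (n + 3)).mul (Const.sm_cont (P252C.sm_RR hd.sm))).continuousOn)
  refine (isMaxOn_iff.1 hm y hy).trans ?_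
  show v z ^ (n + 3) * RR w z ≤ _
  have hcH : 0 < c * H := mul_pos hc0 hH
  rcases (hv0 z hz).lt_or_eq with hp | hp
  · have hb := Const.cube_max hd (hin hz) (c := c * H) (sub_pos.1 hp) (hloc _ z hz hm hp)
    have h1 : v z ^ (n + 1) * (v z ^ 2 * RR w z) ≤ v z ^ (n + 1) *
        (2 * n * ((((n : ℝ) + 3) ^ 2 / 2 + (n + 3)) * QQ w z + ((n : ℝ) + 3) * n * v z)) :=
      mul_le_mul_of_nonneg_left hb (by positivity)
    calc v z ^ (n + 3) * RR w z = v z ^ (n + 1) * (v z ^ 2 * RR w z) := by ring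
      _ ≤ _ := h1
      _ = 2 * n * ((((n : ℝ) + 3) ^ 2 / 2 + (n + 3)) * (v z ^ (n + 1) * QQ w z) +
            ((n : ℝ) + 3) * n * v z ^ (n + 2)) := by ring
      _ ≤ 2 * n * ((((n : ℝ) + 3) ^ 2 / 2 + (n + 3)) * (Const.gradC n * (c * H) ^ (n + 2)) +
            ((n : ℝ) + 3) * n * (c * H) ^ (n + 2)) :=
          mul_le_mul_of_nonneg_left (add_le_add (mul_le_mul_of_nonneg_left (hQ z hz) (by positivity))
            (mul_le_mul_of_nonneg_left (pow_le_pow_left₀ hp.le (hvH z hz) _) (by positivity)))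
            (by positivity)
      _ = _ := by unfold Const.cubeC; ring
  · rw [← hp, zero_pow (by omega), zero_mul]
    unfold Const.cubeC Const.gradC; positivity

theorem RR_zero {x₀ : V n} (hx₀ : x₀ ∈ P.Ω) : RR (P.extC c (P.u x₀ + 1)) x₀ = 0 := by
  set h₀ := P.u x₀ + 1 with hh₀
  set R := RR (P.extC c h₀) x₀ with hR
  have hin : x₀ ∈ P.sec h₀ := ⟨hx₀, by linarith⟩
  have hR0 : 0 ≤ R := Const.RR_nonneg (P.detOne_extC hc0 hcD hdet h₀) hin
  refine le_antisymm ?_ hR0
  by_contra hne
  push Not at hne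
  set H := max (2 * h₀) (2 ^ (n + 3) * Const.cubeC n / (R * c) + 1) with hHdef
  have hh0 : 0 < h₀ := by linarith [P.nonneg hx₀]
  have hH1 : 2 * h₀ ≤ H := le_max_left _ _
  have hH0 : 0 < H := by linarith
  have hb := P.cube_bound hc0 hcD hdet hH0 (y := x₀) ⟨hx₀, by linarith⟩
  have e0 : ∀ y ∈ P.sec h₀, P.extC c (H + 1) y = P.extC c h₀ y := fun y hy => by
    rw [P.extC_eq hy.1 (by linarith [hy.2]), P.extC_eq hy.1 hy.2.le]
  rw [Const.RR_congr_on (P.isOpen_sec h₀) (P.extC_smooth c (H + 1)) (P.extC_smooth c h₀) e0 hin,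
    ← hR, P.extC_eq hx₀ (by linarith)] at hb
  have hcH : 0 < c * H := mul_pos hc0 hH0
  have hv : c * H / 2 ≤ c * H - c * P.u x₀ := by
    have := mul_le_mul_of_nonneg_left (show P.u x₀ ≤ H / 2 by linarith) hc0.le
    linarith
  have h1 : (c * H) ^ (n + 2) * (c * H * R) ≤ (c * H) ^ (n + 2) * (2 ^ (n + 3) * Const.cubeC n) := by
    have h2 := (mul_le_mul_of_nonneg_right (pow_le_pow_left₀ (by positivity) hv (n + 3))
      hR0).trans hb
    have h3 := mul_le_mul_of_nonneg_left h2 (show (0 : ℝ) ≤ 2 ^ (n + 3) by positivity)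
    calc (c * H) ^ (n + 2) * (c * H * R) = 2 ^ (n + 3) * ((c * H / 2) ^ (n + 3) * R) := by
          rw [div_pow, pow_succ (c * H) (n + 2)]
          field_simp
      _ ≤ _ := h3
      _ = _ := by ring
  have h2 := le_of_mul_le_mul_left h1 (pow_pos hcH _)
  have h3 : H ≤ 2 ^ (n + 3) * Const.cubeC n / (R * c) :=
    (le_div_iff₀ (mul_pos hne hc0)).2 (by linarith)
  have := le_max_right (2 * h₀) (2 ^ (n + 3) * Const.cubeC n / (R * c) + 1)
  linarith

theorem hessian_const {x : V n} (hx : x ∈ P.Ω) : hessian P.u x = hessian P.u P.p₀ := by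
  ext i j
  refine IsOpen.is_const_of_fderiv_eq_zero (f := fun y => hessian P.u y i j) P.isOpen
    P.convex.isPreconnected
    ((P252B.contDiffOn_hessian P.isOpen P.smooth i j).differentiableOn (by norm_num))
    (fun y hy => ?_) hx P.mem₀
  set h := P.u y + 1 with hh
  have hyl : y ∈ P.sec h := ⟨hy, by linarith⟩
  have e : (fun z => hessian P.u z i j) =ᶠ[nhds y] fun z => c⁻¹ * T2 (P.extC c h) i j z :=
    Filter.eventuallyEq_of_mem ((P.isOpen_sec h).mem_nhds hyl) fun z hz => by
      simp only [P.T2_extC hz, inv_mul_cancel_left₀ hc0.ne']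
  have hs := P252C.sm_T2 (P.extC_smooth c h) i j
  rw [e.fderiv_eq, fderiv_const_mul (hs.diff y)]
  refine ContinuousLinearMap.ext fun v => ?_
  rw [_root_.smul_apply, P252B.fderiv_apply_sum]
  simp [show ∀ a, pd (T2 (P.extC c h) i j) a y = 0 from fun a =>
    Const.T3_zero_of_RR (P.detOne_extC hc0 hcD hdet h) hyl (P.RR_zero hc0 hcD hdet hy) a i j]

theorem quadratic {x : V n} (hx : x ∈ P.Ω) :
    P.u x = (∑ i, ∑ j, hessian P.u P.p₀ i j * (x i - P.p₀ i) * (x j - P.p₀ j)) / 2 := by
  set A := hessian P.u P.p₀ with hA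
  have hpd : ∀ j, ∀ y ∈ P.Ω, pd P.u j y = ∑ i, A i j * (y i - P.p₀ i) := by
    intro j y hy
    set L : V n →L[ℝ] ℝ := ∑ i, A i j • PiLp.proj 2 (fun _ : Fin n => ℝ) i with hL
    have hLy : ∀ z, L z = ∑ i, A i j * z i := fun z => by simp [hL]
    have hd := P252B.contDiffOn_pd P.isOpen P.smooth j
    have hc := IsOpen.is_const_of_fderiv_eq_zero (f := fun z => pd P.u j z - L z) P.isOpen
      P.convex.isPreconnected
      ((hd.differentiableOn (by norm_num)).sub L.differentiable.differentiableOn)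
      (fun z hz => by
        rw [fderiv_fun_sub (P252B.diffAt_of_mem P.isOpen hd hz) L.differentiableAt, L.fderiv]
        refine ContinuousLinearMap.ext fun v => ?_
        rw [_root_.sub_apply, P252B.fderiv_apply_sum, hLy]
        simp [← P252B.hessian_eq P.isOpen P.smooth hz, P.hessian_const hc0 hcD hdet hz, hA,
          mul_comm])
      hy P.mem₀
    have h0 : pd P.u j P.p₀ = 0 := by simp [P252B.pd, P.diff₀]
    simp only [h0, hLy] at hc
    simp only [mul_sub, Finset.sum_sub_distrib]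
    linarith
  set d := x - P.p₀ with hd
  set q := ∑ i, ∑ j, A i j * (x i - P.p₀ i) * (x j - P.p₀ j) with hq
  have hmem : ∀ t ∈ Icc (0 : ℝ) 1, P.p₀ + t • d ∈ P.Ω := fun t ht =>
    P.convex.add_smul_sub_mem P.mem₀ hx ht
  have hder : ∀ t ∈ Icc (0 : ℝ) 1,
      HasDerivAt (fun t : ℝ => P.u (P.p₀ + t • d) - t ^ 2 / 2 * q) 0 t := by
    intro t ht
    have h1 : HasDerivAt (fun t : ℝ => P.u (P.p₀ + t • d)) (fderiv ℝ P.u (P.p₀ + t • d) d) t := by
      refine (P252B.diffAt_of_mem P.isOpen P.smooth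
        (hmem t ht)).hasFDerivAt.comp_hasDerivAt t ?_
      simpa using ((hasDerivAt_id t).smul_const d).const_add P.p₀
    have h2 : HasDerivAt (fun t : ℝ => t ^ 2 / 2 * q) (t * q) t := by
      simpa using ((hasDerivAt_pow 2 t).div_const 2).mul_const q
    refine (h1.sub h2).congr_deriv ?_
    rw [P252B.fderiv_apply_sum, sub_eq_zero]
    simp only [hpd _ _ (hmem t ht)]
    simp only [hq, hd, PiLp.add_apply, PiLp.smul_apply, PiLp.sub_apply,
      smul_eq_mul, Finset.mul_sum]
    rw [Finset.sum_comm]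
    exact Finset.sum_congr rfl fun i _ => Finset.sum_congr rfl fun j _ => by ring
  have := constant_of_has_deriv_right_zero
    (fun t ht => (hder t ht).continuousAt.continuousWithinAt)
    (fun t ht => (hder t (Ico_subset_Icc_self ht)).hasDerivWithinAt) 1 (right_mem_Icc.2 zero_le_one)
  simp [P.val₀, hd] at this
  linarith

theorem eq_univ : P.Ω = univ := by
  refine IsClopen.eq_univ ⟨?_, P.isOpen⟩ ⟨P.p₀, P.mem₀⟩
  refine isClosed_of_closure_subset fun x hx => ?_
  obtain ⟨s, hs, hlim⟩ := mem_closure_iff_seq_limit.1 hx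
  set q : V n → ℝ := fun y =>
    (∑ i, ∑ j, hessian P.u P.p₀ i j * (y i - P.p₀ i) * (y j - P.p₀ j)) / 2 with hq
  have hqc : Continuous q := by fun_prop
  exact (P.closed_graph.mem_of_tendsto (hlim.prodMk_nhds ((hqc.tendsto x).comp hlim))
    (Filter.Eventually.of_forall fun k => ⟨hs k, (P.quadratic hc0 hcD hdet (hs k)).symm⟩)).1

end Sol

/-- A solution with constant determinant is an entire quadratic, in every dimension. -/
theorem detConstSpec (n : ℕ) : DetConstSpec n := by
  intro P D hdet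
  have hD : 0 < D := hdet _ P.mem₀ ▸ P.dt_pos P.mem₀
  set c := (D⁻¹) ^ ((1 : ℝ) / n) with hc
  have hc0 : 0 < c := Real.rpow_pos_of_pos (inv_pos.2 hD) _
  have hcD : c ^ n * D = 1 := by
    rcases Nat.eq_zero_or_pos n with h0 | h0
    · subst h0
      have h1 := hdet _ P.mem₀
      rw [dt, Matrix.det_isEmpty] at h1
      rw [pow_zero, one_mul, ← h1]
    · rw [hc, ← Real.rpow_natCast, ← Real.rpow_mul (inv_pos.2 hD).le,
        one_div_mul_cancel (by positivity), Real.rpow_one, inv_mul_cancel₀ hD.ne']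
  have hU := P.eq_univ hc0 hcD hdet
  set A := hessian P.u P.p₀ with hA
  refine ⟨hU, fun i j => A i j / 2, fun i => -(∑ j, (A i j + A j i) / 2 * P.p₀ j),
    ∑ i, ∑ j, A i j / 2 * (P.p₀ i * P.p₀ j), fun x => ?_⟩
  rw [P.quadratic hc0 hcD hdet (hU ▸ mem_univ x), ← hA]
  have e : ∀ i j, A i j * (x i - P.p₀ i) * (x j - P.p₀ j) / 2 = A i j / 2 * x i * x j -
      A i j / 2 * P.p₀ j * x i - A i j / 2 * P.p₀ i * x j + A i j / 2 * (P.p₀ i * P.p₀ j) :=
    fun i j => by ring
  have e2 : ∑ i, ∑ j, A i j / 2 * P.p₀ i * x j = ∑ i, ∑ j, A j i / 2 * P.p₀ j * x i :=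
    Finset.sum_comm
  simp only [Finset.sum_div, e, Finset.sum_add_distrib, Finset.sum_sub_distrib, e2, neg_mul,
    Finset.sum_mul, Finset.sum_neg_distrib, add_div, add_mul]
  ring

end Vale.Agent.P252G
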