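import Vale.Agent.P252C.Frame
import Vale.Agent.P100.Puncture
import Vale.Agent.P252G.Const.Alg

/-!
The two pointwise estimates at an interior maximum of a cut-off squared gradient and of a cut-off
squared cubic form, in every dimension.
-/

open Set Matrix Finset

namespace Vale.Agent.P252G.Const

open Vale.Agent.P252 (hessian)
open Vale.Agent.P252B (V pd)
open Vale.Agent.P252C (Sm DetOne G T2 T3 MM PP RR WW QQ lin)

variable {n : ℕ} {u : V n → ℝ} {O : Set (V n)}

theorem exists_frame (h : DetOne u O) {z : V n} (hz : z ∈ O) :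
    ∃ (T : Matrix (Fin n) (Fin n) ℝ) (x : V n), T.det ^ 2 = 1 ∧ lin T x = z ∧
      ∀ i j, G (fun y => u (lin T y)) i j x = if i = j then 1 else 0 := by
  obtain ⟨T, hTT⟩ := P252C.exists_factor (h.pos z hz).inv
  have hT : T.det ^ 2 = 1 := by
    have e := congrArg Matrix.det hTT
    rw [Matrix.det_mul, Matrix.det_transpose, Matrix.det_nonsing_inv, h.det z hz,
      Ring.inverse_one] at e
    rw [sq, e]
  have hT0 : T.det ≠ 0 := fun h0 => by simp [h0] at hT
  have hx : lin T (lin T⁻¹ z) = z := by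
    rw [← mul_apply_eq_comp, lin, lin, ← map_mul, Matrix.mul_nonsing_inv _ (Ne.isUnit hT0), map_one,
      one_apply_eq_self]
  exact ⟨T, lin T⁻¹ z, hT, hx, P252C.G_lin_one h (hx.symm ▸ hz) (by rw [hx]; exact hTT)⟩

theorem pd_GW (h : DetOne u O) {x : V n} (hx : x ∈ O) (l j : Fin n) :
    pd (WW u j) l x = (if j = l then 1 else 0) - ∑ b, ∑ c, G u j b x * T3 u l b c x * WW u c x := by
  unfold P252C.WW
  rw [P252C.pd_sum (fun a _ => (P252C.sm_G h.sm j a).mul (h.sm.pd a))]
  simp only [P252C.pd_mul (P252C.sm_G h.sm j _) (h.sm.pd _), Finset.sum_add_distrib]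
  have e1 : ∑ a, G u j a x * pd (pd u a) l x = if j = l then 1 else 0 := by
    rw [← P252C.sum_G_T2 h hx j l]
    refine Finset.sum_congr rfl fun a _ => ?_
    rw [P252C.T2_comm h.sm a l]; rfl
  rw [e1]
  simp only [P252C.pd_G h hx, neg_mul, Finset.sum_mul, Finset.mul_sum, Finset.sum_neg_distrib]
  rw [sub_eq_add_neg, add_comm, add_right_inj]
  congr 1
  rw [Finset.sum_congr rfl fun a _ => Finset.sum_comm, Finset.sum_comm]
  refine Finset.sum_congr rfl fun b _ => ?_
  rw [Finset.sum_comm]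
  exact Finset.sum_congr rfl fun c _ => Finset.sum_congr rfl fun a _ => by ring

theorem sum_T2_WW (h : DetOne u O) {x : V n} (hx : x ∈ O) (l : Fin n) :
    ∑ j, T2 u l j x * WW u j x = pd u l x := by
  simp only [P252C.WW, Finset.mul_sum]
  rw [Finset.sum_comm]
  have e : ∀ a, ∑ j, T2 u l j x * (G u j a x * pd u a x) =
      (if a = l then 1 else 0) * pd u a x := fun a => by
    rw [← P252C.sum_G_T2 h hx a l, Finset.sum_mul]
    exact Finset.sum_congr rfl fun j _ => by
      rw [P252C.T2_comm h.sm l j, P252C.G_comm h.sm j a]; ring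
  simp [e]

theorem pd_QQ (h : DetOne u O) {x : V n} (hx : x ∈ O) (l : Fin n) :
    pd (QQ u) l x = 2 * pd u l x - ∑ b, ∑ c, WW u b x * T3 u l b c x * WW u c x := by
  unfold P252C.QQ
  rw [P252C.pd_sum (fun j _ => (h.sm.pd j).mul (P252C.sm_WW h.sm j))]
  simp only [P252C.pd_mul (h.sm.pd _) (P252C.sm_WW h.sm _), Finset.sum_add_distrib, pd_GW h hx,
    mul_sub, Finset.sum_sub_distrib, mul_ite, mul_one, mul_zero, Finset.sum_ite_eq',
    Finset.mem_univ, if_true]
  have e1 : ∑ j, pd (pd u j) l x * WW u j x = pd u l x := sum_T2_WW h hx l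
  have e2 : ∑ j, pd u j x * ∑ b, ∑ c, G u j b x * T3 u l b c x * WW u c x =
      ∑ b, ∑ c, WW u b x * T3 u l b c x * WW u c x := by
    simp only [Finset.mul_sum]
    rw [Finset.sum_comm]
    refine Finset.sum_congr rfl fun b _ => ?_
    rw [Finset.sum_comm]
    refine Finset.sum_congr rfl fun c _ => ?_
    simp only [show WW u b x = ∑ a, G u b a x * pd u a x from rfl, Finset.sum_mul]
    exact Finset.sum_congr rfl fun j _ => by rw [P252C.G_comm h.sm b j]; ring
  rw [e1, e2]
  ring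

theorem pd_pow {g : V n → ℝ} (hg : Sm g) (m : ℕ) (l : Fin n) (x : V n) :
    pd (fun y => g y ^ (m + 1)) l x = ((m : ℝ) + 1) * g x ^ m * pd g l x := by
  induction m with
  | zero => simp
  | succ m ih =>
    have hm : Sm fun y => g y ^ (m + 1) := ContDiff.pow hg _
    rw [show (fun y => g y ^ (m + 1 + 1)) = fun y => g y ^ (m + 1) * g y from
      funext fun y => pow_succ _ _, P252C.pd_mul hm hg, ih]
    push_cast
    ring

theorem pd_line {f : V n → ℝ} (hf : Sm f) (z : V n) (i : Fin n) (t : ℝ) :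
    HasDerivAt (fun s : ℝ => f (z + s • EuclideanSpace.single i 1))
      (pd f i (z + t • EuclideanSpace.single i 1)) t := by
  have h1 : HasDerivAt (fun s : ℝ => z + s • EuclideanSpace.single i (1 : ℝ))
      (EuclideanSpace.single i (1 : ℝ)) t := by
    simpa using ((hasDerivAt_id t).smul_const (EuclideanSpace.single i (1 : ℝ))).const_add z
  exact (hf.diff _).hasFDerivAt.comp_hasDerivAt t h1

theorem max_deriv {f : V n → ℝ} (hf : Sm f) {z : V n} (hm : IsLocalMax f z) (i : Fin n) :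
    pd f i z = 0 ∧ pd (pd f i) i z ≤ 0 := by
  refine ⟨by simp [P252B.pd, hm.fderiv_eq_zero], ?_⟩
  set e : V n := EuclideanSpace.single i 1 with he
  have hmin : IsLocalMin (fun t : ℝ => -f (z + t • e)) 0 := by
    refine IsLocalMax.neg ?_
    refine IsLocalMax.comp_continuous (g := fun t : ℝ => z + t • e) ?_ (by fun_prop)
    simpa using hm
  have hd : deriv (fun t : ℝ => -f (z + t • e)) = fun t => -pd f i (z + t • e) :=
    funext fun t => (pd_line hf z i t).neg.deriv
  have h2 : HasDerivAt (fun t : ℝ => -pd f i (z + t • e)) (-pd (pd f i) i z) 0 := by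
    have := (pd_line (hf.pd i) z i 0).neg
    rw [zero_smul, add_zero] at this
    exact this
  have h3 := P100.deriv_deriv_nonneg hmin (pd_line hf z i 0).neg.continuousAt
  rw [hd, h2.deriv] at h3
  linarith

/-- The conditions at a maximum of `(c - u) ^ (m + 1) * F`. -/
theorem max_power (hu : Sm u) {F : V n → ℝ} (hF : Sm F) {z : V n} (c : ℝ) (m : ℕ)
    (hv : u z < c) (hm : IsLocalMax (fun y => (c - u y) ^ (m + 1) * F y) z)
    (h2 : ∀ l, pd (pd u l) l z = 1) :
    (∀ l, (c - u z) * pd F l z = ((m : ℝ) + 1) * pd u l z * F z) ∧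
    (c - u z) ^ 2 * ∑ l, pd (pd F l) l z ≤
      ((m : ℝ) + 1) * (m + 2) * (∑ l, pd u l z * pd u l z) * F z +
        ((m : ℝ) + 1) * n * (c - u z) * F z := by
  set g : V n → ℝ := fun y => c - u y with hg
  have hgs : Sm g := ContDiff.sub contDiff_const hu
  have hgd : ∀ l x, pd g l x = -pd u l x := fun l x => by
    simp [P252B.pd, hg, fderiv_const_sub]
  have hgs' : ∀ k, Sm fun y => g y ^ k := fun k => ContDiff.pow hgs _
  have hv0 : 0 < g z := sub_pos.2 hv
  have hfs : Sm fun y => g y ^ (m + 1) * F y := (hgs' _).mul hF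
  have d1 : ∀ l, pd (fun y => g y ^ (m + 1) * F y) l =
      fun x => -((m : ℝ) + 1) * (g x ^ m * (pd u l x * F x)) + g x ^ (m + 1) * pd F l x := fun l => by
    funext x
    rw [P252C.pd_mul (hgs' _) hF, pd_pow hgs, hgd]
    ring
  have h1 : ∀ l, g z * pd F l z = ((m : ℝ) + 1) * pd u l z * F z := fun l => by
    have e := (max_deriv hfs hm l).1
    rw [d1 l] at e
    have e' : g z ^ m * (g z * pd F l z - ((m : ℝ) + 1) * pd u l z * F z) = 0 := by
      simp only [pow_succ] at e
      linarith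
    rcases mul_eq_zero.1 e' with e'' | e''
    · exact absurd e'' (pow_ne_zero _ hv0.ne')
    · linarith
  refine ⟨h1, ?_⟩
  have hpow : ∀ l, pd (fun y => g y ^ m) l z * g z = -((m : ℝ) * g z ^ m * pd u l z) := fun l => by
    rcases m with _ | m
    · simp [P252C.pd_const]
    · rw [pd_pow hgs, hgd]; push_cast; ring
  have h3 : ∀ l, g z ^ 2 * pd (pd F l) l z ≤ ((m : ℝ) + 1) * (m + 2) * (pd u l z * pd u l z) * F z +
      ((m : ℝ) + 1) * g z * F z := fun l => by
    have e := (max_deriv hfs hm l).2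
    have hin : Sm fun x => pd u l x * F x := (hu.pd l).mul hF
    have ha : Sm fun x => g x ^ m * (pd u l x * F x) := (hgs' _).mul hin
    rw [d1 l, P252C.pd_add ((P252C.sm_const _).mul ha) ((hgs' _).mul (hF.pd l)),
      P252C.pd_mul (P252C.sm_const _) ha, P252C.pd_const, P252C.pd_mul (hgs' _) hin,
      P252C.pd_mul (hu.pd l) hF, P252C.pd_mul (hgs' _) (hF.pd l), pd_pow hgs, hgd, h2 l] at e
    have e2 := mul_nonpos_of_nonpos_of_nonneg e hv0.le
    have e3 : g z ^ m * (g z ^ 2 * pd (pd F l) l z) ≤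
        g z ^ m * (((m : ℝ) + 1) * (m + 2) * (pd u l z * pd u l z) * F z +
          ((m : ℝ) + 1) * g z * F z) := by
      have k1 : pd (fun y => g y ^ m) l z * g z * (pd u l z * F z) =
          -((m : ℝ) * g z ^ m * pd u l z) * (pd u l z * F z) := by rw [hpow l]
      have k2 : g z * pd F l z * (g z ^ m * pd u l z) =
          ((m : ℝ) + 1) * pd u l z * F z * (g z ^ m * pd u l z) := by rw [h1 l]
      simp only [pow_succ] at e2
      linear_combination e2 + ((m : ℝ) + 1) * k1 + 2 * ((m : ℝ) + 1) * k2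
    exact le_of_mul_le_mul_left e3 (pow_pos hv0 m)
  have h4 := Finset.sum_le_sum (s := Finset.univ) fun l (_ : l ∈ Finset.univ) => h3 l
  rw [← Finset.mul_sum, Finset.sum_add_distrib, ← Finset.sum_mul, ← Finset.mul_sum,
    Finset.sum_const, Finset.card_univ, Fintype.card_fin, nsmul_eq_mul] at h4
  refine h4.trans (le_of_eq ?_)
  simp only [hg]
  ring

section Frame

variable {z : V n} (h : DetOne u O) (hzO : z ∈ O) (hz : ∀ i j, G u i j z = if i = j then 1 else 0)
include h hzO hz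

theorem T2_pt (i j : Fin n) : pd (pd u j) i z = if i = j then 1 else 0 := by
  have e := P252C.sum_T2_G h hzO i j
  simp only [hz, mul_ite, mul_one, mul_zero, Finset.sum_ite_eq', Finset.mem_univ, if_true] at e
  exact e

theorem WW_pt (j : Fin n) : WW u j z = pd u j z := by simp [P252C.WW, hz]

theorem QQ_pt : QQ u z = ∑ l, pd u l z * pd u l z := by simp [P252C.QQ, P252C.WW, hz]

theorem ip_QQ_pt : ∑ l, pd u l z * pd (QQ u) l z = 2 * QQ u z -
    ∑ l, ∑ b, ∑ c, T3 u l b c z * (pd u l z * pd u b z * pd u c z) := by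
  simp only [pd_QQ h hzO, WW_pt h hzO hz, QQ_pt h hzO hz, mul_sub, Finset.sum_sub_distrib,
    Finset.mul_sum]
  congr 1
  · exact Finset.sum_congr rfl fun l _ => by ring
  · exact Finset.sum_congr rfl fun l _ => Finset.sum_congr rfl fun b _ =>
      Finset.sum_congr rfl fun c _ => by ring

/-- The Laplacian of the squared gradient. -/
theorem lapQQ_pt : ∑ l, pd (pd (QQ u) l) l z =
    2 * (n : ℝ) + ∑ j, ∑ k, (∑ i, T3 u i j k z * pd u i z) ^ 2 := by
  set w := fun i => pd u i z with hw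
  set M := fun j k => ∑ i, T3 u i j k z * w i with hM
  have hW : ∀ l b, pd (WW u b) l z = (if b = l then 1 else 0) - M l b := fun l b => by
    rw [pd_GW h hzO]
    simp only [hz, WW_pt h hzO hz, ite_mul, one_mul, zero_mul]
    rw [Finset.sum_comm]
    simp only [Finset.sum_ite_eq, Finset.mem_univ, if_true, hM, hw]
    congr 1
    exact Finset.sum_congr rfl fun c _ => by
      rw [congrFun (P252C.T3_comm23 h.sm l b c) z, congrFun (P252C.T3_comm12 h.sm l c b) z]
  have sW := fun b => P252C.sm_WW h.sm b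
  have sT := fun l b c => P252C.sm_T3 h.sm l b c
  have hd : ∀ l, pd (pd (QQ u) l) l z = 2 * 1 - ∑ b, ∑ c,
      ((((if b = l then 1 else 0) - M l b) * T3 u l b c z + w b * pd (T3 u l b c) l z) * w c +
        w b * T3 u l b c z * ((if c = l then 1 else 0) - M l c)) := fun l => by
    have hs : Sm fun y => ∑ b, ∑ c, WW u b y * T3 u l b c y * WW u c y :=
      P252C.sm_sum fun b _ => P252C.sm_sum fun c _ => ((sW b).mul (sT l b c)).mul (sW c)
    rw [P252C.pd_congr_on h.op (fun y hy => pd_QQ h hy l) hzO]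
    simp only [sub_eq_add_neg]
    rw [P252C.pd_add ((P252C.sm_const _).mul (h.sm.pd l)) hs.neg, P252C.pd_neg,
      P252C.pd_mul (P252C.sm_const _) (h.sm.pd l), P252C.pd_const,
      P252C.pd_sum (fun b _ => P252C.sm_sum fun c _ => ((sW b).mul (sT l b c)).mul (sW c)),
      T2_pt h hzO hz, if_pos rfl, zero_mul, zero_add]
    congr 2
    refine Finset.sum_congr rfl fun b _ => ?_
    rw [P252C.pd_sum (fun c _ => ((sW b).mul (sT l b c)).mul (sW c))]
    refine Finset.sum_congr rfl fun c _ => ?_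
    rw [P252C.pd_mul ((sW b).mul (sT l b c)) (sW c), P252C.pd_mul (sW b) (sT l b c), hW, hW,
      WW_pt h hzO hz, WW_pt h hzO hz]
    ring
  have s23 : ∀ l b c, T3 u l c b z = T3 u l b c z := fun l b c =>
    congrFun (P252C.T3_comm23 h.sm l c b) z
  have s12 : ∀ l b c, T3 u b l c z = T3 u l b c z := fun l b c =>
    congrFun (P252C.T3_comm12 h.sm b l c) z
  have hMs : ∀ l b, ∑ c, T3 u l b c z * w c = M l b := fun l b =>
    Finset.sum_congr rfl fun c _ => by rw [← s23 l b c, ← s12 l c b]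
  have htr : ∑ l, M l l = 0 := by
    rw [hM, Finset.sum_comm]
    refine Finset.sum_eq_zero fun i _ => ?_
    rw [← Finset.sum_mul, Finset.sum_congr rfl fun l _ => show T3 u i l l z = T3 u l l i z by
      rw [← s12 i l l, ← s23 l l i], P252C.traceA_pt h hzO hz, zero_mul]
  have t1 : ∑ l, ∑ b, ∑ c, ((if b = l then 1 else 0) - M l b) * T3 u l b c z * w c =
      -∑ l, ∑ b, M l b ^ 2 := by
    simp only [mul_assoc, ← Finset.mul_sum, hMs, sub_mul, ite_mul, one_mul, zero_mul,
      Finset.sum_sub_distrib, Finset.sum_ite_irrel, Finset.sum_const_zero, Finset.sum_ite_eq',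
      Finset.mem_univ, if_true, htr, hMs, zero_sub, sq]
  have t3 : ∑ l, ∑ b, ∑ c, w b * T3 u l b c z * ((if c = l then 1 else 0) - M l c) =
      -∑ l, ∑ b, M l b ^ 2 := by
    rw [← t1]
    refine Finset.sum_congr rfl fun l _ => ?_
    rw [Finset.sum_comm]
    exact Finset.sum_congr rfl fun b _ => Finset.sum_congr rfl fun c _ => by
      rw [← s23 l c b]; ring
  have t2 : ∑ l, ∑ b, ∑ c, w b * pd (T3 u l b c) l z * w c = ∑ l, ∑ b, M l b ^ 2 := by
    rw [Finset.sum_comm, Finset.sum_congr rfl fun b _ => Finset.sum_comm]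
    simp only [← Finset.sum_mul, ← Finset.mul_sum, P252C.traceB_pt h hzO hz]
    simp only [hM, sq, Finset.sum_mul_sum]
    simp only [Finset.mul_sum, Finset.sum_mul]
    rw [P252G.Const.flat4, P252G.Const.flat4]
    exact Finset.sum_nbij' (fun x => (x.2.2.1, x.2.2.2, x.1, x.2.1))
      (fun x => (x.2.2.1, x.2.2.2, x.1, x.2.1)) (by simp) (by simp) (by simp) (by simp)
      fun ⟨b, c, j, k⟩ _ => by simp only [hw]; rw [← s23 c j k]; ring
  simp only [hd, add_mul, Finset.sum_sub_distrib, Finset.sum_add_distrib, t1, t2, t3,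
    Finset.sum_const, Finset.card_univ, Fintype.card_fin, nsmul_eq_mul]
  show _ = 2 * (n : ℝ) + ∑ j, ∑ k, M j k ^ 2
  ring

theorem grad_pt {c : ℝ} (hv : u z < c)
    (hm : IsLocalMax (fun y => (c - u y) ^ (n + 1) * QQ u y) z) :
    QQ u z ≤ (n : ℝ) * (n + 4) / 2 * (c - u z) := by
  obtain ⟨h1, h2⟩ := max_power h.sm (P252C.sm_QQ h.sm) c n hv hm
    fun l => by rw [T2_pt h hzO hz, if_pos rfl]
  rw [lapQQ_pt h hzO hz, ← QQ_pt h hzO hz] at h2
  have htr : ∀ k, ∑ p, T3 u k p p z = 0 := fun k => by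
    rw [← P252C.traceA_pt h hzO hz k]
    exact Finset.sum_congr rfl fun p _ => by
      rw [congrFun (P252C.T3_comm12 h.sm k p p) z, congrFun (P252C.T3_comm23 h.sm p k p) z]
  have hc := cubic_ric (A := fun i j k => T3 u i j k z) htr (fun l => pd u l z)
  rw [← QQ_pt h hzO hz] at hc
  set v := c - u z with hvd
  set Q := QQ u z with hQd
  set P := ∑ j, ∑ k, (∑ i, T3 u i j k z * pd u i z) ^ 2 with hP
  set C := ∑ l, ∑ b, ∑ k, T3 u l b k z * (pd u l z * pd u b z * pd u k z) with hC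
  have hv0 : 0 < v := sub_pos.2 hv
  have hQ0 : 0 ≤ Q := by
    rw [hQd, QQ_pt h hzO hz]; exact Finset.sum_nonneg fun l _ => mul_self_nonneg _
  rcases hQ0.lt_or_eq with hQ | hQ
  swap
  · rw [← hQ]; positivity
  have hn : (1 : ℝ) ≤ n := by
    rcases Nat.eq_zero_or_pos n with h0 | h0
    · subst h0
      rw [hQd, QQ_pt h hzO hz] at hQ
      simp at hQ
    · exact_mod_cast h0
  have hC1 : v * (2 * Q - C) = ((n : ℝ) + 1) * Q * Q := by
    rw [hQd, hC, ← ip_QQ_pt h hzO hz, Finset.mul_sum]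
    simp only [mul_left_comm v, h1]
    refine Eq.trans ?_ (congrArg (fun t => ((n : ℝ) + 1) * Q * t) (QQ_pt h hzO hz).symm)
    simp only [Finset.mul_sum]
    exact Finset.sum_congr rfl fun l _ => by ring
  have hC2 : v * C = Q * (2 * v - ((n : ℝ) + 1) * Q) := by linarith
  have a1 : Q ^ 2 * ((n : ℝ) * (2 * v - (n + 1) * Q) ^ 2) ≤ Q ^ 2 * (((n : ℝ) - 1) * (v ^ 2 * P)) := by
    have := mul_le_mul_of_nonneg_left hc (sq_nonneg v)
    calc Q ^ 2 * ((n : ℝ) * (2 * v - (n + 1) * Q) ^ 2) = (n : ℝ) * (v * C) ^ 2 := by rw [hC2]; ring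
      _ = v ^ 2 * ((n : ℝ) * C ^ 2) := by ring
      _ ≤ _ := this
      _ = _ := by ring
  have a2 := le_of_mul_le_mul_left a1 (pow_pos hQ 2)
  have a3 := mul_le_mul_of_nonneg_left h2 (sub_nonneg.2 hn)
  have a4 : (2 * ((n : ℝ) + 1) * Q) * Q ≤ ((n : ℝ) + 1) * n * (n + 4) * v * Q := by
    have p1 : (0 : ℝ) ≤ ((n : ℝ) - 1) * (2 * n) * v ^ 2 :=
      mul_nonneg (mul_nonneg (sub_nonneg.2 hn) (by positivity)) (sq_nonneg v)
    have p2 : 0 ≤ ((n : ℝ) + 1) * n * v * Q := by positivity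
    have p3 : 0 ≤ (n : ℝ) * v ^ 2 := by positivity
    nlinarith
  have a5 : 2 * ((n : ℝ) + 1) * Q ≤ ((n : ℝ) + 1) * n * (n + 4) * v :=
    le_of_mul_le_mul_right a4 hQ
  have a6 : 2 * Q ≤ n * (n + 4) * v := le_of_mul_le_mul_left (by linarith)
    (show (0 : ℝ) < n + 1 by positivity)
  linarith

theorem cube_pt {c : ℝ} (hv : u z < c)
    (hm : IsLocalMax (fun y => (c - u y) ^ (n + 3) * RR u y) z) :
    (c - u z) ^ 2 * RR u z ≤ 2 * n * ((((n : ℝ) + 3) ^ 2 / 2 + (n + 3)) * QQ u z +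
      ((n : ℝ) + 3) * n * (c - u z)) := by
  obtain ⟨h1, h2⟩ := max_power h.sm (P252C.sm_RR h.sm) c (n + 2) hv hm
    fun l => by rw [T2_pt h hzO hz, if_pos rfl]
  set A : Fin n → Fin n → Fin n → ℝ := fun i j k => T3 u i j k z with hA
  set B : Fin n → Fin n → Fin n → Fin n → ℝ := fun l i j k => pd (T3 u i j k) l z with hB
  have hw := weighted (A := A) (B := B)
    (fun i j k => congrFun (P252C.T3_comm12 h.sm i j k) z)
    (fun i j k => congrFun (P252C.T3_comm23 h.sm i j k) z)
    (fun l i j k => congrFun (P252C.T4_comm01 h.sm l i j k) z)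
    (fun l i j k => congrFun (P252C.T4_comm12 h.sm l i j k) z)
    (fun l i j k => congrFun (P252C.T4_comm23 h.sm l i j k) z)
    (fun l => pd u l z) (c - u z) ((n : ℝ) + 3)
  have eP : ∀ i a, PP u i a z = ric A i a := P252C.PP_pt h hzO hz
  have eM : ∀ l i j k, pd (MM u i j k) l z = dm A B l i j k := P252C.pdMM_pt h hzO hz
  have e1 : ∑ l, pd (pd (RR u) l) l z = lapR A B := by
    have e0 : P252C.lap u (RR u) z = ∑ l, pd (pd (RR u) l) l z := by simp [P252C.lap, hz]
    rw [← e0, P252C.lapRR_pt h hzO hz]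
    simp only [eP, eM, P252C.fifth_pt h hzO hz]
    rfl
  have e2 : ∀ l, pd (RR u) l z = dR A B l := fun l => by
    rw [P252C.pdRR_pt h hzO hz]
    simp only [eP, eM]
    rfl
  have e4 : RR u z = ∑ i, ric A i i := by rw [P252C.RR_pt h hzO hz]; rfl
  rw [← e1, ← QQ_pt h hzO hz, ← e4] at hw
  simp only [← e2] at hw
  rw [← QQ_pt h hzO hz] at h2
  push_cast at h1 h2
  have h5 : (c - u z) * ∑ l, pd u l z * pd (RR u) l z = ((n : ℝ) + 3) * RR u z * QQ u z := by
    rw [QQ_pt h hzO hz, Finset.mul_sum, Finset.mul_sum]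
    refine Finset.sum_congr rfl fun l _ => ?_
    rw [mul_left_comm, h1]
    ring
  have hR0 : 0 ≤ RR u z := by
    rw [P252C.RR_pt h hzO hz]
    refine Finset.sum_nonneg fun i _ => Finset.sum_nonneg fun j _ => Finset.sum_nonneg fun k _ => ?_
    rw [congrFun (P252C.T3_comm23 h.sm i j k) z]
    exact mul_self_nonneg _
  have hv0 : 0 < c - u z := sub_pos.2 hv
  have hQ0 : 0 ≤ QQ u z := by
    rw [QQ_pt h hzO hz]; exact Finset.sum_nonneg fun l _ => mul_self_nonneg _
  rcases hR0.lt_or_eq with hR | hR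
  swap
  · rw [← hR, mul_zero]; positivity
  rw [mul_assoc ((n : ℝ) + 3) (c - u z), h5] at hw
  have h2' := mul_le_mul_of_nonneg_left h2 (show (0 : ℝ) ≤ 2 * n by positivity)
  refine le_of_mul_le_mul_right ?_ hR
  linarith

end Frame

theorem QQ_nonneg (h : DetOne u O) {z : V n} (hz : z ∈ O) : 0 ≤ QQ u z := by
  obtain ⟨T, x, hT, hx, hG⟩ := exists_frame h hz
  have hxO : lin T x ∈ O := hx.symm ▸ hz
  rw [← hx, ← P252C.QQ_lin h hT hxO, QQ_pt (P252C.detOne_lin h hT) hxO hG]
  exact Finset.sum_nonneg fun j _ => mul_self_nonneg _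

theorem RR_nonneg (h : DetOne u O) {z : V n} (hz : z ∈ O) : 0 ≤ RR u z := by
  obtain ⟨T, x, hT, hx, hG⟩ := exists_frame h hz
  have hxO : lin T x ∈ O := hx.symm ▸ hz
  rw [← hx, ← P252C.RR_lin h hT hxO, P252C.RR_pt (P252C.detOne_lin h hT) hxO hG]
  refine Finset.sum_nonneg fun i _ => Finset.sum_nonneg fun j _ => Finset.sum_nonneg fun k _ => ?_
  rw [congrFun (P252C.T3_comm23 (P252C.detOne_lin h hT).sm i j k) x]
  exact mul_self_nonneg _

theorem T3_zero_of_RR (h : DetOne u O) {z : V n} (hz : z ∈ O) (h0 : RR u z = 0) (a b c : Fin n) :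
    T3 u a b c z = 0 := by
  obtain ⟨T, x, hT, hx, hG⟩ := exists_frame h hz
  have hxO : lin T x ∈ O := hx.symm ▸ hz
  have hT0 : T.det ≠ 0 := fun h0 => by simp [h0] at hT
  have e := P252C.RR_pt (P252C.detOne_lin h hT) hxO hG
  rw [P252C.RR_lin h hT hxO, hx, h0] at e
  have hv : ∀ i j k, T3 (fun y => u (lin T y)) i j k x = 0 := by
    have h1 : ∑ i, ∑ j, ∑ k, T3 (fun y => u (lin T y)) i j k x ^ 2 = 0 := by
      refine Eq.trans ?_ e.symm
      refine Finset.sum_congr rfl fun i _ => Finset.sum_congr rfl fun j _ =>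
        Finset.sum_congr rfl fun k _ => ?_
      rw [congrFun (P252C.T3_comm23 (P252C.detOne_lin h hT).sm i k j) x]; ring
    intro i j k
    have h2 := (Finset.sum_eq_zero_iff_of_nonneg fun i _ => Finset.sum_nonneg fun j _ =>
      Finset.sum_nonneg fun k _ => sq_nonneg _).1 h1 i (Finset.mem_univ _)
    have h3 := (Finset.sum_eq_zero_iff_of_nonneg fun j _ =>
      Finset.sum_nonneg fun k _ => sq_nonneg _).1 h2 j (Finset.mem_univ _)
    exact pow_eq_zero_iff two_ne_zero |>.1
      ((Finset.sum_eq_zero_iff_of_nonneg fun k _ => sq_nonneg _).1 h3 k (Finset.mem_univ _))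
  have hback : u = fun y => (fun y => u (lin T y)) (lin T⁻¹ y) := by
    funext y
    show u y = u (lin T (lin T⁻¹ y))
    rw [← mul_apply_eq_comp, lin, lin, ← map_mul, Matrix.mul_nonsing_inv _ (Ne.isUnit hT0), map_one,
      one_apply_eq_self]
  have hxz : lin T⁻¹ z = x := by
    rw [← hx, ← mul_apply_eq_comp, lin, lin, ← map_mul, Matrix.nonsing_inv_mul _ (Ne.isUnit hT0),
      map_one, one_apply_eq_self]
  rw [hback, P252C.T3_lin (P252C.detOne_lin h hT).sm]
  simp [hxz, hv]

/-- At an interior maximum the gradient is controlled by the cutoff. -/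
theorem grad_max (h : DetOne u O) {z : V n} (hz : z ∈ O) {c : ℝ} (hv : u z < c)
    (hm : IsLocalMax (fun y => (c - u y) ^ (n + 1) * QQ u y) z) :
    QQ u z ≤ (n : ℝ) * (n + 4) / 2 * (c - u z) := by
  obtain ⟨T, x, hT, hx, hG⟩ := exists_frame h hz
  have hxO : lin T x ∈ O := hx.symm ▸ hz
  have hm' : IsLocalMax ((fun y => (c - u y) ^ (n + 1) * QQ u y) ∘ lin T) x :=
    IsLocalMax.comp_continuous (by rwa [hx]) (lin T).continuous.continuousAt
  have hev : ((fun y => (c - u y) ^ (n + 1) * QQ u y) ∘ lin T) =ᶠ[nhds x]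
      fun y => (c - u (lin T y)) ^ (n + 1) * QQ (fun w => u (lin T w)) y := by
    filter_upwards [(P252C.detOne_lin h hT).op.mem_nhds hxO] with y hy
    simp only [Function.comp, P252C.QQ_lin h hT hy]
  have := grad_pt (P252C.detOne_lin h hT) hxO hG (c := c) (by simpa [hx] using hv)
    (hev.isLocalMax_iff.1 hm')
  simpa [P252C.QQ_lin h hT hxO, hx] using this

/-- At an interior maximum the cubic form is controlled by the gradient and the cutoff. -/
theorem cube_max (h : DetOne u O) {z : V n} (hz : z ∈ O) {c : ℝ} (hv : u z < c)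
    (hm : IsLocalMax (fun y => (c - u y) ^ (n + 3) * RR u y) z) :
    (c - u z) ^ 2 * RR u z ≤ 2 * n * ((((n : ℝ) + 3) ^ 2 / 2 + (n + 3)) * QQ u z +
      ((n : ℝ) + 3) * n * (c - u z)) := by
  obtain ⟨T, x, hT, hx, hG⟩ := exists_frame h hz
  have hxO : lin T x ∈ O := hx.symm ▸ hz
  have hm' : IsLocalMax ((fun y => (c - u y) ^ (n + 3) * RR u y) ∘ lin T) x :=
    IsLocalMax.comp_continuous (by rwa [hx]) (lin T).continuous.continuousAt
  have hev : ((fun y => (c - u y) ^ (n + 3) * RR u y) ∘ lin T) =ᶠ[nhds x]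
      fun y => (c - u (lin T y)) ^ (n + 3) * RR (fun w => u (lin T w)) y := by
    filter_upwards [(P252C.detOne_lin h hT).op.mem_nhds hxO] with y hy
    simp only [Function.comp, P252C.RR_lin h hT hy]
  have := cube_pt (P252C.detOne_lin h hT) hxO hG (c := c) (by simpa [hx] using hv)
    (hev.isLocalMax_iff.1 hm')
  simpa [P252C.QQ_lin h hT hxO, P252C.RR_lin h hT hxO, hx] using this

end Vale.Agent.P252G.Const
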